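import Vale.Agent.N248.Euc
import Vale.Agent.Results.P254.AStrongIsotropic

/-!
# P248, Q2: the general Mahler conjecture with its equality case
-/

open MeasureTheory

/-- For every `n ≥ 1` and every convex body `K` in `ℝ^n`, the volume product
`P(K) = inf over z in int K of |K| |(K - z)°|` is at least `(n+1)^(n+1) / (n!)^2`, with equality
if and only if `K` is a simplex. -/
theorem Vale.Agent.Results.P248.A0GeneralMahler.result (n : ℕ) (hn : 1 ≤ n)
    (K : Set (EuclideanSpace ℝ (Fin n))) (hcomp : IsCompact K) (hconv : Convex ℝ K)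
    (hint : (interior K).Nonempty) :
    ENNReal.ofReal (((n : ℝ) + 1) ^ (n + 1) / (n.factorial : ℝ) ^ 2) ≤
        (⨅ z ∈ interior K, volume K *
          volume {y : EuclideanSpace ℝ (Fin n) | ∀ x ∈ K, inner ℝ y (x - z) ≤ (1 : ℝ)}) ∧
      ((⨅ z ∈ interior K, volume K *
          volume {y : EuclideanSpace ℝ (Fin n) | ∀ x ∈ K, inner ℝ y (x - z) ≤ (1 : ℝ)}) =
          ENNReal.ofReal (((n : ℝ) + 1) ^ (n + 1) / (n.factorial : ℝ) ^ 2) ↔
        ∃ v : Fin (n + 1) → EuclideanSpace ℝ (Fin n),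
          AffineIndependent ℝ v ∧ K = convexHull ℝ (Set.range v)) :=
  have h := Vale.Agent.N248.q2 hn (Vale.Agent.N248.slice_of hn fun K S =>
    Vale.Agent.Results.P254.AStrongIsotropic.result n K S hn) hcomp hconv hint
  ⟨h.1, h.2.1⟩
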